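import Vale.Agent.P363.One
import Vale.Agent.P363.Two.Assembly
import Vale.Agent.P363.Two.Form
import Vale.Agent.P363.Two.Harnack.Main

/-!
# P363: ground-state densities of molecules with at most two electrons are representable
-/

open Vale.Agent.P363

namespace Vale.Agent.Results.P363.AtMostTwoElectrons

/-- For every Coulomb molecule with one or two electrons, the density of every ground state is
noninteracting ensemble representable by a potential in `L^{3/2} + L^∞`. -/
theorem result : ∀ (N M : ℕ), 1 ≤ N → N ≤ 2 → ∀ (Z : Fin M → ℕ) (R : Fin M → R3),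
    (∀ j, 1 ≤ Z j) → Function.Injective R →
    ∀ Ψ : Wave N, IsGroundState (molecule Z R) Ψ →
      (∃ n : R3 → ℝ, HasDensity Ψ n) ∧
        ∀ n : R3 → ℝ, HasDensity Ψ n → EnsembleRepresentable N n := by
  intro N M h1 h2 Z R _ _ Ψ hΨ
  suffices h : ∃ n, HasDensity Ψ n ∧ EnsembleRepresentable N n by
    obtain ⟨n, hn, hr⟩ := h
    exact ⟨⟨n, hn⟩, fun n' hn' => representable_congr hr (hasDensity_unique hn hn')⟩
  obtain rfl | rfl : N = 1 ∨ N = 2 := by omega
  · exact one_electron hΨ
  · exact Two.two_electron Two.harnack Two.formPin hΨ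

end Vale.Agent.Results.P363.AtMostTwoElectrons
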